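import Vale.Agent.P204.MathlibUsed2

/-!
# P204: Donaldson's tamed-to-compatible question

Almost complex structures and symplectic forms on a smooth manifold `X` modelled on the real
normed space `E` (Mathlib: `ChartedSpace E X`, `IsManifold 𝓘(ℝ, E) ∞ X`).
-/

open scoped Manifold ContDiff Topology

namespace Vale.Agent.P204.DC

section Defs

variable {E : Type*} [NormedAddCommGroup E] [NormedSpace ℝ E]
variable {X : Type*} [TopologicalSpace X] [ChartedSpace E X]

variable (E X) in
/-- A (not necessarily smooth) real two-form on `X`: an alternating bilinear form on every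
tangent space. -/
abbrev TwoForm := ∀ x : X, TangentSpace 𝓘(ℝ, E) x [⋀^Fin 2]→L[ℝ] ℝ

variable (E X) in
/-- A (not necessarily smooth) field of endomorphisms of the tangent spaces of `X`. -/
abbrev EndField := ∀ x : X, TangentSpace 𝓘(ℝ, E) x →L[ℝ] TangentSpace 𝓘(ℝ, E) x

/-- The pullback of the two-form `om` by a map `f : E → X`. For `f = e.symm`, the inverse of a
chart `e`, it is the coordinate expression of `om` in the chart `e`. -/
noncomputable def pullForm (f : E → X) (om : TwoForm E X) : E → E [⋀^Fin 2]→L[ℝ] ℝ :=
  fun y => (om (f y)).compContinuousLinearMap (mfderiv 𝓘(ℝ, E) 𝓘(ℝ, E) f y)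

/-- A two-form is smooth if its expression in every chart of the atlas is smooth. -/
def SmoothForm (om : TwoForm E X) : Prop :=
  ∀ e ∈ atlas E X, ContDiffOn ℝ ∞ (pullForm e.symm om) e.target

/-- A two-form is closed if the exterior derivative of its expression in every chart vanishes. -/
def ClosedForm (om : TwoForm E X) : Prop :=
  ∀ e ∈ atlas E X, ∀ y ∈ e.target, extDeriv (pullForm e.symm om) y = 0

/-- The coordinate expression of a field of endomorphisms in a chart `e`, at the point with
coordinates `y`: the endomorphism `de ∘ J ∘ d(e⁻¹)` of `E`. -/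
noncomputable def endRep (e : OpenPartialHomeomorph X E) (J : EndField E X) (y : E) : E →L[ℝ] E :=
  (mfderiv 𝓘(ℝ, E) 𝓘(ℝ, E) e (e.symm y)).comp
    ((J (e.symm y)).comp (mfderiv 𝓘(ℝ, E) 𝓘(ℝ, E) e.symm y))

/-- A smooth almost complex structure on `X`: `J² = -1`, and the expression of `J` in every
chart of the atlas is smooth. -/
structure AlmostComplex (J : EndField E X) : Prop where
  smooth : ∀ e ∈ atlas E X, ContDiffOn ℝ ∞ (endRep e J) e.target
  sq : ∀ x (v : TangentSpace 𝓘(ℝ, E) x), J x (J x v) = -v

/-- A symplectic form: smooth, closed and nondegenerate. -/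
structure Symplectic (om : TwoForm E X) : Prop where
  smooth : SmoothForm om
  closed : ClosedForm om
  nondegenerate : ∀ x (v : TangentSpace 𝓘(ℝ, E) x), (∀ w, om x ![v, w] = 0) → v = 0

/-- `om` tames `J`. -/
def Tames (om : TwoForm E X) (J : EndField E X) : Prop :=
  ∀ x (v : TangentSpace 𝓘(ℝ, E) x), v ≠ 0 → 0 < om x ![v, J x v]

/-- `om` is compatible with `J`: it tames `J` and is `J`-invariant. -/
structure Compatible (om : TwoForm E X) (J : EndField E X) : Prop where
  tames : Tames om J
  invariant : ∀ x (u v : TangentSpace 𝓘(ℝ, E) x), om x ![J x u, J x v] = om x ![u, v]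

end Defs

/-- Donaldson's question for the closed connected smooth four-manifolds: every smooth almost
complex structure which is tamed by a symplectic form is compatible with a symplectic form. -/
def Donaldson.{u} : Prop :=
  ∀ (X : Type u) [TopologicalSpace X] [ChartedSpace (EuclideanSpace ℝ (Fin 4)) X]
    [IsManifold (𝓡 4) ∞ X] [CompactSpace X] [T2Space X] [ConnectedSpace X]
    (J : EndField (EuclideanSpace ℝ (Fin 4)) X), AlmostComplex J →
    (∃ om : TwoForm (EuclideanSpace ℝ (Fin 4)) X, Symplectic om ∧ Tames om J) →
    ∃ om : TwoForm (EuclideanSpace ℝ (Fin 4)) X, Symplectic om ∧ Compatible om J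

end Vale.Agent.P204.DC
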